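import Vale.Agent.P112.H587.LL.Out2
import Vale.Agent.P112.H455.LL.One

open MeasureTheory Filter Topology

namespace Vale.Agent.Results.P112.LogLog

open Vale.Agent.P112

/-- The truncated Hilbert transforms along unit vector fields of the plane with Lipschitz constant
at most one: the norm on `L²` is at most `C √(1 + log (1 + log (a / ε)))`. -/
theorem result : ∃ C : ℝ, 0 < C ∧
    ∀ v : Plane → Plane, (∀ x, ‖v x‖ = 1) → LipschitzWith 1 v →
      ∀ ε a : ℝ, 0 < ε → ε < a → a ≤ 1 → ∀ f : SchwartzMap Plane ℂ,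
        ∫⁻ x, ‖truncHilbert v ε a f x‖ₑ ^ 2 ≤
          ENNReal.ofReal (C * (1 + Real.log (1 + Real.log (a / ε))) * ∫ x, ‖f x‖ ^ 2) :=
  H587.LL.loglog_of_sqrt (e := 1 / 2) (by norm_num) (by norm_num)
    (H455.LL.bandBoundW_sqrtlog (M := 8) (by norm_num) le_rfl)

end Vale.Agent.Results.P112.LogLog
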