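import Vale.Agent.P112.Final.Main

open MeasureTheory Filter Topology

namespace Vale.Agent.Results.P112.SteinConjecture

open Vale.Agent.P112

/-- Stein's conjecture for Hilbert transforms along Lipschitz vector fields, in strong form. -/
theorem result :
    (∀ (v : Plane → Plane) (F : Plane → ℂ), IsSchwartz F → ∀ (x : Plane) (a : ℝ), 0 < a →
      Tendsto (fun ε : ℝ => truncHilbert v ε a F x) (𝓝[>] (0 : ℝ)) (𝓝 (hilbert v a F x))) ∧
    (∃ C : ℝ, 0 < C ∧ ∀ v : Plane → Plane, (∀ x, ‖v x‖ = 1) → LipschitzWith 1 v →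
      ∀ a : ℝ, 0 < a → a ≤ 1 → StrongType v a C ∧ WeakType v a C) ∧
    (∃ v : Plane → Plane, (∀ x, ‖v x‖ = 1) ∧ LipschitzWith 1 v ∧
      ∀ a : ℝ, 1 < a → ∀ C : ℝ, ¬ WeakType v a C) :=
  ⟨Final.pv, Final.stein, Final.sharp⟩

end Vale.Agent.Results.P112.SteinConjecture
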