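import Vale.Agent.P112.Final.Main

open MeasureTheory

namespace Vale.Agent.Results.P112.SteinWeakType

open Vale.Agent.P112

/-- Stein's conjecture for Hilbert transforms along Lipschitz vector fields, in the formulation
of Lacey and Li. -/
theorem result : ∃ a₀ C : ℝ, 0 < a₀ ∧ ∀ v : Plane → Plane, (∀ x, ‖v x‖ = 1) →
    LipschitzWith 1 v → ∀ f : SchwartzMap Plane ℂ, ∀ lam : ℝ, 0 < lam →
      volume {x | lam < ‖hilbert v a₀ f x‖} ≤
        ENNReal.ofReal (C / lam ^ 2 * ∫ x, ‖f x‖ ^ 2) := by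
  obtain ⟨C, _, h⟩ := Final.stein
  exact ⟨1, C, one_pos, fun v hv hL => weakType_iff.1 (h v hv hL 1 one_pos le_rfl).2⟩

end Vale.Agent.Results.P112.SteinWeakType
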